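import Mathlib

/-!
# P141, polylog bound: the fixed-grid four-linear form (base definitions)

Cells are integers.  The scale `k` interval of `x` has index `x / 2 ^ k` (floor).  A face function
is a function on `ℤ × ℤ × ℤ`; the function of face `j` depends on the three coordinates different
from `j`, IN INCREASING ORDER:
`F0 (x1,x2,x3)`, `F1 (x0,x2,x3)`, `F2 (x0,x1,x3)`, `F3 (x0,x1,x2)`.
-/

namespace Vale.Agent.P141.PL

open Finset

noncomputable section

/-- Points of a face. -/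
abbrev Pt : Type := ℤ × ℤ × ℤ

/-- Indices of four-dimensional boxes. -/
abbrev Bx : Type := ℤ × ℤ × ℤ × ℤ

/-- The dyadic interval of scale `k` and index `m`. -/
def iv (k : ℕ) (m : ℤ) : Finset ℤ := Ico (2 ^ k * m) (2 ^ k * m + 2 ^ k)

/-- The index of the scale `k` interval of `x`. -/
def ix (k : ℕ) (x : ℤ) : ℤ := x / 2 ^ k

theorem mem_iv {k : ℕ} {m x : ℤ} : x ∈ iv k m ↔ ix k x = m := by
  unfold iv ix
  have h2 : (0 : ℤ) < 2 ^ k := by positivity
  rw [mem_Ico]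
  constructor
  · rintro ⟨h, h'⟩
    refine le_antisymm ?_ ?_
    · exact Int.lt_add_one_iff.mp (Int.ediv_lt_of_lt_mul h2 (by linarith))
    · exact Int.le_ediv_of_mul_le h2 (by linarith)
  · rintro rfl
    have h3 := Int.mul_ediv_add_emod x (2 ^ k)
    have h4 := Int.emod_nonneg x h2.ne'
    have h5 := Int.emod_lt_of_pos x h2
    constructor <;> linarith

theorem self_mem_iv (k : ℕ) (x : ℤ) : x ∈ iv k (ix k x) := mem_iv.mpr rfl

@[simp] theorem card_iv (k : ℕ) (m : ℤ) : (iv k m).card = 2 ^ k := by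
  unfold iv
  rw [Int.card_Ico]
  have : (2 ^ k * m + 2 ^ k - 2 ^ k * m : ℤ) = ((2 ^ k : ℕ) : ℤ) := by push_cast; ring
  rw [this, Int.toNat_natCast]

theorem ix_zero (x : ℤ) : ix 0 x = x := by simp [ix]

theorem ix_ix (k l : ℕ) (x : ℤ) : ix l (ix k x) = ix (k + l) x := by
  unfold ix
  rw [pow_add, Int.ediv_ediv_of_nonneg (by positivity)]

/-- The Haar sign of `x` at scale `k ≥ 1`: `1` on the left half of the interval, `-1` on the right
half. -/
def hs (k : ℕ) (x : ℤ) : ℝ := if ix (k - 1) x % 2 = 0 then 1 else -1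

theorem hs_mul_self (k : ℕ) (x : ℤ) : hs k x * hs k x = 1 := by
  unfold hs; split_ifs <;> norm_num

theorem abs_hs (k : ℕ) (x : ℤ) : |hs k x| = 1 := by
  unfold hs; split_ifs <;> simp

/-- The scale `k` cube of a face with indices `m`. -/
def cb (k : ℕ) (m : Pt) : Finset Pt := iv k m.1 ×ˢ iv k m.2.1 ×ˢ iv k m.2.2

/-- The indices of the scale `k` cube of a point of a face. -/
def cx (k : ℕ) (p : Pt) : Pt := (ix k p.1, ix k p.2.1, ix k p.2.2)

theorem mem_cb {k : ℕ} {m p : Pt} : p ∈ cb k m ↔ cx k p = m := by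
  unfold cb cx
  rw [mem_product, mem_product, mem_iv, mem_iv, mem_iv]
  constructor
  · rintro ⟨h1, h2, h3⟩; rw [h1, h2, h3]
  · intro h; rw [← h]; exact ⟨rfl, rfl, rfl⟩

@[simp] theorem card_cb (k : ℕ) (m : Pt) : (cb k m).card = 8 ^ k := by
  unfold cb
  rw [card_product, card_product, card_iv, card_iv, card_iv, ← mul_pow, ← mul_pow]
  norm_num

/-! ### The form -/

/-- The integrand at the four variables. -/
def prd (F0 F1 F2 F3 : Pt → ℝ) (x0 x1 x2 x3 : ℤ) : ℝ :=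
  F0 (x1, x2, x3) * F1 (x0, x2, x3) * F2 (x0, x1, x3) * F3 (x0, x1, x2)

/-- The local form on the four-dimensional box of scale `k` with indices `m` (a SUM). -/
def loc (k : ℕ) (m : Bx) (F0 F1 F2 F3 : Pt → ℝ) : ℝ :=
  ∑ x0 ∈ iv k m.1, ∑ x1 ∈ iv k m.2.1, ∑ x2 ∈ iv k m.2.2.1, ∑ x3 ∈ iv k m.2.2.2,
    hs k x0 * hs k x1 * hs k x2 * hs k x3 * prd F0 F1 F2 F3 x0 x1 x2 x3

/-- The boxes of scale `k ≤ n` and offset `o` inside the root of scale `n` with indices `R`: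
sum of the indices `= o - 2` (sum of the centres `= o 2 ^ k`). -/
def bxs (n : ℕ) (R : Bx) (o : ℤ) (k : ℕ) : Finset Bx :=
  (iv (n - k) R.1 ×ˢ iv (n - k) R.2.1 ×ˢ iv (n - k) R.2.2.1 ×ˢ iv (n - k) R.2.2.2).filter
    fun m => m.1 + m.2.1 + m.2.2.1 + m.2.2.2 = o - 2

/-- The sum of the absolute values of the local forms, functions depending on the scale. -/
def totK (n : ℕ) (R : Bx) (o : ℤ) (F0 F1 F2 F3 : ℕ → Pt → ℝ) : ℝ :=
  ∑ k ∈ Icc 1 n, (2 ^ k : ℝ)⁻¹ *
    ∑ m ∈ bxs n R o k, |loc k m (F0 k) (F1 k) (F2 k) (F3 k)|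

/-- The sum of the absolute values of the local forms inside a root. -/
def tot (n : ℕ) (R : Bx) (o : ℤ) (F0 F1 F2 F3 : Pt → ℝ) : ℝ :=
  totK n R o (fun _ => F0) (fun _ => F1) (fun _ => F2) (fun _ => F3)

/-- The face cubes of the root: face `j` omits the coordinate `j`. -/
def rf0 (R : Bx) : Pt := (R.2.1, R.2.2.1, R.2.2.2)
@[inherit_doc rf0] def rf1 (R : Bx) : Pt := (R.1, R.2.2.1, R.2.2.2)
@[inherit_doc rf0] def rf2 (R : Bx) : Pt := (R.1, R.2.1, R.2.2.2)
@[inherit_doc rf0] def rf3 (R : Bx) : Pt := (R.1, R.2.1, R.2.2.1)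

/-- Averages over the cube of scale `k` and indices `m`. -/
def av (k : ℕ) (m : Pt) (f : Pt → ℝ) : ℝ := (8 ^ k : ℝ)⁻¹ * ∑ p ∈ cb k m, f p

/-- The `L⁴` sum over a cube. -/
def n4 (k : ℕ) (m : Pt) (f : Pt → ℝ) : ℝ := (∑ p ∈ cb k m, |f p| ^ 4) ^ (1 / 4 : ℝ)

/-- **TARGET(n)** with constant `B`: the rooted fixed-grid form is bounded on `L⁴`. -/
def Target (n : ℕ) (B : ℝ) : Prop :=
  ∀ (R : Bx) (o : ℤ), |o| = 1 → ∀ F0 F1 F2 F3 : Pt → ℝ,
    tot n R o F0 F1 F2 F3 ≤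
      B * n4 n (rf0 R) F0 * n4 n (rf1 R) F1 * n4 n (rf2 R) F2 * n4 n (rf3 R) F3

/-- The polylogarithmic form of the target. -/
def TargetPL : Prop := ∃ C : ℝ, ∀ n : ℕ, 1 ≤ n → Target n (C * (1 + Real.log n) ^ C)

/-- The form of the target with an arbitrary small power. -/
def TargetEta : Prop := ∀ η : ℝ, 0 < η → ∃ C : ℝ, ∀ n : ℕ, 1 ≤ n → Target n (C * (n : ℝ) ^ η)

/-! ### Role 0: the trilinear form on the three coordinates of face 0, `x0` fixed -/

/-- The trilinear local form on the box with indices `m = (m1, m2, m3)` (a SUM):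
`A = A (x1,x2)`, `B = B (x2,x3)`, `C = C (x1,x3)`. -/
def tri (k : ℕ) (m : Pt) (A B C : ℤ → ℤ → ℝ) : ℝ :=
  ∑ x1 ∈ iv k m.1, ∑ x2 ∈ iv k m.2.1, ∑ x3 ∈ iv k m.2.2,
    hs k x1 * hs k x2 * hs k x3 * (A x1 x2 * B x2 x3 * C x1 x3)

/-- An atom: a product of three edge functions `a12 (x1,x2)`, `a13 (x1,x3)`, `a23 (x2,x3)`
(named after face `0`; on the other faces the three coordinates in increasing order). -/
structure Atom where
  a12 : ℤ → ℤ → ℝ
  a13 : ℤ → ℤ → ℝ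
  a23 : ℤ → ℤ → ℝ

/-- The function of an atom. -/
def Atom.fn (a : Atom) : Pt → ℝ := fun p => a.a12 p.1 p.2.1 * a.a13 p.1 p.2.2 * a.a23 p.2.1 p.2.2

/-- With an atom on face `0` the four-linear form is a sum over `x0` of trilinear forms. -/
theorem loc_atom (k : ℕ) (m : Bx) (a : Atom) (F1 F2 F3 : Pt → ℝ) :
    loc k m a.fn F1 F2 F3 = ∑ x0 ∈ iv k m.1, hs k x0 *
      tri k (rf0 m) (fun x1 x2 => a.a12 x1 x2 * F3 (x0, x1, x2))
        (fun x2 x3 => a.a23 x2 x3 * F1 (x0, x2, x3))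
        (fun x1 x3 => a.a13 x1 x3 * F2 (x0, x1, x3)) := by
  unfold loc tri prd Atom.fn rf0
  refine sum_congr rfl fun x0 _ => ?_
  simp only [mul_sum]
  refine sum_congr rfl fun x1 _ => sum_congr rfl fun x2 _ => sum_congr rfl fun x3 _ => ?_
  ring

/-! ### Symmetries: transpositions of two coordinates -/

/-- swap the first two / last two arguments / the first and last argument of a face function -/
def s12 (F : Pt → ℝ) : Pt → ℝ := fun p => F (p.2.1, p.1, p.2.2)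
@[inherit_doc s12] def s23 (F : Pt → ℝ) : Pt → ℝ := fun p => F (p.1, p.2.2, p.2.1)

/-- transposition of `x0` and `x1` -/
theorem loc_swap01 (k : ℕ) (m : Bx) (F0 F1 F2 F3 : Pt → ℝ) :
    loc k (m.2.1, m.1, m.2.2.1, m.2.2.2) F1 F0 (s12 F2) (s12 F3) = loc k m F0 F1 F2 F3 := by
  unfold loc prd s12
  rw [sum_comm]
  refine sum_congr rfl fun x0 _ => sum_congr rfl fun x1 _ => sum_congr rfl fun x2 _ =>
    sum_congr rfl fun x3 _ => ?_
  ring

/-- transposition of `x1` and `x2` -/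
theorem loc_swap12 (k : ℕ) (m : Bx) (F0 F1 F2 F3 : Pt → ℝ) :
    loc k (m.1, m.2.2.1, m.2.1, m.2.2.2) (s12 F0) F2 F1 (s23 F3) = loc k m F0 F1 F2 F3 := by
  unfold loc prd s12 s23
  refine sum_congr rfl fun x0 _ => ?_
  rw [sum_comm]
  refine sum_congr rfl fun x1 _ => sum_congr rfl fun x2 _ => sum_congr rfl fun x3 _ => ?_
  ring

/-- transposition of `x2` and `x3` -/
theorem loc_swap23 (k : ℕ) (m : Bx) (F0 F1 F2 F3 : Pt → ℝ) :
    loc k (m.1, m.2.1, m.2.2.2, m.2.2.1) (s23 F0) (s23 F1) F3 F2 = loc k m F0 F1 F2 F3 := by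
  unfold loc prd s23
  refine sum_congr rfl fun x0 _ => sum_congr rfl fun x1 _ => ?_
  rw [sum_comm]
  refine sum_congr rfl fun x2 _ => sum_congr rfl fun x3 _ => ?_
  ring

end

end Vale.Agent.P141.PL
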