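import Vale.Agent.P141.PL.Defs
import Vale.Agent.P141.PL.H315.Export

/-!
# P141, polylog bound: companions and the cost statement

A companion is a path `G : ℕ → Pt → ℝ` (value `G k` at scale `k`) of functions of one face.
`Comp n e δ Λ G` collects the only facts about companions which the cost theorem uses.
-/

namespace Vale.Agent.P141.PL

open Finset

noncomputable section

/-- The exponent of the sup norm in the weights: `n ^ ee n ≤ 3`, `0 < ee n ≤ 1/2`. -/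
def ee (n : ℕ) : ℝ := (2 + Real.log n)⁻¹

/-- The facts about the companions: uniformity at level `δ`, line energies, line movements.
All lines, all cubes (not only those of a root), scales `≤ n`. -/
structure Comp (n : ℕ) (e δ Λ : ℝ) (G : ℕ → Pt → ℝ) : Prop where
  /-- uniformity at scale `k` against the products on all cubes of scale `l ≥ k` -/
  unif : ∀ k l, k ≤ l → l ≤ n → ∀ (p : Pt) (u : H315.Tri),
    |H315.avg (H315.cube3 l p) (fun q => G k q * H315.atm u q)| ≤ H315.wN δ e l p u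
  /-- line energies, three directions -/
  line1 : ∀ k l, k ≤ l → l ≤ n → ∀ m y z : ℤ, ∑ x ∈ iv l m, G k (x, y, z) ^ 2 ≤ 2 ^ l * Λ
  line2 : ∀ k l, k ≤ l → l ≤ n → ∀ x m z : ℤ, ∑ y ∈ iv l m, G k (x, y, z) ^ 2 ≤ 2 ^ l * Λ
  line3 : ∀ k l, k ≤ l → l ≤ n → ∀ x y m : ℤ, ∑ z ∈ iv l m, G k (x, y, z) ^ 2 ≤ 2 ^ l * Λ
  /-- line movements over the dyadic windows of one length, three directions;
  time `= l - scale`, in the format of `H317.chain_fun'` -/
  win1 : ∀ l ≤ n, ∀ J j : ℕ, l ≤ 2 ^ J → j < J → ∀ m y z : ℤ,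
    ∑ i ∈ range (2 ^ (J - 1 - j)), ∑ x ∈ iv l m,
      (G (l - min ((2 * i + 1) * 2 ^ j) l) (x, y, z) - G (l - min ((2 * i) * 2 ^ j) l) (x, y, z)) ^ 2
        ≤ 2 ^ l * Λ
  win2 : ∀ l ≤ n, ∀ J j : ℕ, l ≤ 2 ^ J → j < J → ∀ x m z : ℤ,
    ∑ i ∈ range (2 ^ (J - 1 - j)), ∑ y ∈ iv l m,
      (G (l - min ((2 * i + 1) * 2 ^ j) l) (x, y, z) - G (l - min ((2 * i) * 2 ^ j) l) (x, y, z)) ^ 2
        ≤ 2 ^ l * Λ
  win3 : ∀ l ≤ n, ∀ J j : ℕ, l ≤ 2 ^ J → j < J → ∀ x y m : ℤ,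
    ∑ i ∈ range (2 ^ (J - 1 - j)), ∑ z ∈ iv l m,
      (G (l - min ((2 * i + 1) * 2 ^ j) l) (x, y, z) - G (l - min ((2 * i) * 2 ^ j) l) (x, y, z)) ^ 2
        ≤ 2 ^ l * Λ

/-- The box of scale `k` and offset `o` over the face-`0` cube of `z`. -/
def bo0 (o : ℤ) (k : ℕ) (z : Pt) : Bx :=
  (o - 2 - ix k z.1 - ix k z.2.1 - ix k z.2.2, ix k z.1, ix k z.2.1, ix k z.2.2)

/-- The normalised local form (an average over the box) of an atom of face `0` with companions,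
on the box over the face-`0` cube of `z`. -/
def L0 (o : ℤ) (k : ℕ) (z : Pt) (u : H315.Tri) (G1 G2 G3 : Pt → ℝ) : ℝ :=
  (16 ^ k : ℝ)⁻¹ * loc k (bo0 o k z) (H315.atm u) G1 G2 G3

/-- **COST** (role `0`; the other roles follow from the transpositions). The total cost of an atom
of face `0` below any cube is polylogarithmic times its weight. -/
def StCost : Prop := ∃ C : ℝ, ∃ q : ℕ, 0 ≤ C ∧ ∀ n : ℕ, 1 ≤ n → ∀ (δ Λ : ℝ), 0 < δ → 1 ≤ Λ →
  ∀ o : ℤ, |o| = 1 → ∀ G1 G2 G3 : ℕ → Pt → ℝ,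
    Comp n (ee n) δ Λ G1 → Comp n (ee n) δ Λ G2 → Comp n (ee n) δ Λ G3 →
    ∀ K ≤ n, ∀ (x : Pt) (u : H315.Tri),
      ∑ k ∈ Icc 1 K, ∑ z ∈ H315.cube3 K x, |L0 o k z u (G1 k) (G2 k) (G3 k)| ≤
        C * ((2 + Real.log n) * Λ) ^ q * H315.wt δ (ee n) (H315.cube3 K x) u

/-- The linear form of a face, coefficients `c`. -/
def el (c p : Pt) : ℤ := c.1 * p.1 + c.2.1 * p.2.1 + c.2.2 * p.2.2

/-- The coefficients of the four faces: `F j p = f j (el (fc j) p)`. -/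
def fc : Fin 4 → Pt
  | 0 => (1, 2, 3)
  | 1 => (-1, 1, 2)
  | 2 => (-2, -1, 1)
  | 3 => (-3, -2, -1)

/-- `F j` of a function of one variable. -/
def lift (j : Fin 4) (f : ℤ → ℝ) : Pt → ℝ := fun p => f (el (fc j) p)

end

end Vale.Agent.P141.PL
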